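import Vale.Agent.P207.Q.H892.SphHaar
import Vale.Agent.P207.Q.H916.Fr2

/-!
# P207, block A7: the invariant measure of the bundle of orthonormal frames
-/

open scoped Manifold ContDiff ENNReal Topology
open Bundle MeasureTheory Set Filter

noncomputable section

set_option linter.unusedSectionVars false

namespace Vale.Agent.P207.Q.H892

open Vale.Agent.P255 (RMetric coefIn Gam Riem IsGeo Metric trans coefL)
open Vale.Agent.P207.Q (Fr)

variable {n : ℕ} {M : Type} [TopologicalSpace M] [ChartedSpace (EV n) M]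
  [IsManifold 𝓘(ℝ, EV n) ∞ M] {g : RMetric (EV n) M}

/-- left action of the orthogonal group on frames -/
instance instActFr : MulAction (OG n) (Fr g) where
  smul A f := Fr.rot A⁻¹ f
  one_smul f := by
    change Fr.rot (1 : OG n)⁻¹ f = f
    rw [inv_one, Fr.rot_one]
  mul_smul A B f := by
    change Fr.rot (A * B)⁻¹ f = Fr.rot A⁻¹ (Fr.rot B⁻¹ f)
    rw [Fr.rot_rot, mul_inv_rev]

theorem smul_def' (A : OG n) (f : Fr g) : A • f = Fr.rot A⁻¹ f := rfl

instance instContFr [NeZero n] : ContinuousSMul (OG n) (Fr g) := ⟨by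
  have h : Continuous (fun q : OG n × Fr g => (q.1⁻¹, q.2)) :=
    (continuous_fst.inv).prodMk continuous_snd
  exact Fr.continuous_rot.comp h⟩

/-- the linear map of a frame -/
def Lf (f : Fr g) : EV n →L[ℝ] EV n :=
  ∑ i, (EuclideanSpace.proj i : EV n →L[ℝ] ℝ).smulRight (f.e i)

theorem Lf_apply (f : Fr g) (u : EV n) : Lf f u = ∑ i, u i • f.e i := by
  simp [Lf]

theorem inner_Lf (f : Fr g) (u v : EV n) : innerB g f.pt (Lf f u) (Lf f v) = inner ℝ u v := by
  rw [Lf_apply, Lf_apply]
  have ho : ∀ i j, innerB g f.pt (f.e i) (f.e j) = if i = j then 1 else 0 := fun i j => f.2 i j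
  simp only [map_sum, map_smul, sum_apply, smul_apply, smul_eq_mul, ho, mul_ite, mul_one,
    mul_zero, Finset.sum_ite_eq', Finset.mem_univ, if_true]
  rw [PiLp.inner_apply]
  simp [mul_comm]

/-- the first vector of a rotated frame -/
theorem rot_e_zero [NeZero n] (A : OG n) (f : Fr g) :
    (Fr.rot A f).e 0 = Lf f (act A (EuclideanSpace.single 0 1)) := by
  rw [Lf_apply, Fr.rot_e]
  refine Finset.sum_congr rfl fun i _ => ?_
  congr 1
  simp

/-- existence of frames -/
theorem exists_frame (g : RMetric (EV n) M) (x : M) : ∃ f : Fr g, f.pt = x := by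
  have hs : ∀ v w, innerB g x v w = innerB g x w v := fun v w => g.symm x v w
  have hp : ∀ v, v ≠ 0 → 0 < innerB g x v v := fun v hv => g.pos x v hv
  obtain ⟨D, hD, hB⟩ := exists_sqrt_form hs hp
  have hsur : Function.Surjective D := by
    have := LinearMap.injective_iff_surjective (f := (D : EV n →ₗ[ℝ] EV n))
    exact this.1 hD
  choose e he using fun i : Fin n => hsur (EuclideanSpace.single i 1)
  refine ⟨⟨⟨x, e⟩, fun i j => ?_⟩, rfl⟩
  change innerB g x (e i) (e j) = _
  rw [hB]
  change inner ℝ (D (e i)) (D (e j)) = _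
  rw [he, he, EuclideanSpace.inner_single_left]
  simp

theorem exists_frame_ut [NeZero n] (p : UT g) : ∃ f : Fr g, f.ut 0 = p := by
  obtain ⟨f, hf⟩ := exists_frame g p.pt
  obtain ⟨⟨x, v⟩, hv⟩ := p
  change f.pt = x at hf
  subst hf
  set u : EV n := WithLp.toLp 2 (fun i => g.inner f.pt v (f.e i)) with hu
  have h1 : Lf f u = v := by
    rw [Lf_apply]
    exact (f.expand v).symm
  have h2 : ‖u‖ = 1 := by
    have h3 := inner_Lf f u u
    rw [h1] at h3
    have h4 : innerB g f.pt v v = 1 := hv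
    rw [h4, real_inner_self_eq_norm_sq] at h3
    have h5 : ‖u‖ = Real.sqrt 1 := by
      rw [h3, Real.sqrt_sq (norm_nonneg _)]
    rw [h5, Real.sqrt_one]
  obtain ⟨A, hA⟩ := exists_act (EuclideanSpace.single (0 : Fin n) (1 : ℝ)) u (by
    rw [h2]; simp)
  refine ⟨Fr.rot A f, ?_⟩
  have h6 : (Fr.rot A f).e 0 = v := by rw [rot_e_zero, hA, h1]
  apply Subtype.ext
  exact congrArg (fun w : TangentSpace 𝓘(ℝ, EV n) f.pt =>
    (⟨f.pt, w⟩ : TangentBundle 𝓘(ℝ, EV n) M)) h6

variable [CompactSpace M] [T2Space M] [NeZero n]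

/-- the frame bundle over the manifold -/
theorem isBdl_pt (g : RMetric (EV n) M) : IsBdl (OG n) (fun f : Fr g => f.pt) where
  cont := Fr.continuous_pt
  surj x := exists_frame g x
  inv A f := rfl
  trans f f' h := by
    obtain ⟨A, hA⟩ := Fr.exists_rot h
    refine ⟨A⁻¹, ?_⟩
    rw [smul_def', inv_inv, hA]

/-- the stabiliser of the first basis vector -/
def Stab (n : ℕ) [NeZero n] : Subgroup (OG n) where
  carrier := {A | act A (EuclideanSpace.single 0 1) = EuclideanSpace.single 0 1}
  mul_mem' {A B} hA hB := by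
    simp only [Set.mem_ofPred_eq] at hA hB ⊢
    rw [act_mul, hB, hA]
  one_mem' := act_one _
  inv_mem' {A} hA := by
    simp only [Set.mem_ofPred_eq] at hA ⊢
    conv_lhs => rw [← hA]
    rw [← act_mul, inv_mul_cancel, act_one]

theorem mem_Stab {A : OG n} :
    A ∈ Stab n ↔ act A (EuclideanSpace.single 0 1) = EuclideanSpace.single 0 1 := Iff.rfl

theorem isClosed_Stab : IsClosed (Stab n : Set (OG n)) := by
  have h : Continuous (fun A : OG n => act A (EuclideanSpace.single 0 1)) :=
    continuous_act.comp (continuous_id.prodMk continuous_const)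
  exact isClosed_eq h continuous_const

instance : SecondCountableTopology (Stab n) :=
  TopologicalSpace.Subtype.secondCountableTopology _

instance : CompactSpace (Stab n) := isCompact_iff_compactSpace.1 isClosed_Stab.isCompact

instance : ContinuousSMul (Stab n) (Fr g) := ⟨by
  have h : Continuous (fun q : Stab n × Fr g => ((q.1.1 : OG n), q.2)) :=
    (continuous_subtype_val.comp continuous_fst).prodMk continuous_snd
  have h2 : Continuous (fun q : OG n × Fr g => q.1 • q.2) := continuous_smul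
  exact h2.comp h⟩

/-- the frame bundle over the unit tangent bundle -/
theorem isBdl_ut (g : RMetric (EV n) M) : IsBdl (Stab n) (fun f : Fr g => f.ut 0) where
  cont := Fr.continuous_ut 0
  surj p := exists_frame_ut p
  inv A f := by
    have h1 : (Fr.rot (A.1)⁻¹ f).e 0 = f.e 0 := by
      rw [rot_e_zero, mem_Stab.1 ((Stab n).inv_mem A.2), Lf_apply]
      simp
    apply Subtype.ext
    exact congrArg (fun w : TangentSpace 𝓘(ℝ, EV n) f.pt =>
      (⟨f.pt, w⟩ : TangentBundle 𝓘(ℝ, EV n) M)) h1
  trans f f' h := by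
    have hT : f.1.vec 0 = f'.1.vec 0 := congrArg Subtype.val h
    have hpt : f.pt = f'.pt := congrArg (fun p : TangentBundle 𝓘(ℝ, EV n) M => p.1) hT
    obtain ⟨A, hA⟩ := Fr.exists_rot hpt
    have he : f'.e 0 = f.e 0 := by
      obtain ⟨⟨x, e⟩, hf⟩ := f
      obtain ⟨⟨x', e'⟩, hf'⟩ := f'
      change x = x' at hpt
      subst hpt
      have h1 : (⟨x, e 0⟩ : TangentBundle 𝓘(ℝ, EV n) M) = ⟨x, e' 0⟩ := hT
      exact (eq_of_heq (Bundle.TotalSpace.mk.inj h1).2).symm
    have h2 : Lf f (act A (EuclideanSpace.single 0 1)) = Lf f (EuclideanSpace.single 0 1) := by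
      rw [← rot_e_zero, hA, he, Lf_apply]
      simp
    have h3 : act A (EuclideanSpace.single 0 1) = EuclideanSpace.single (0 : Fin n) (1 : ℝ) := by
      have h4 := inner_Lf f (act A (EuclideanSpace.single 0 1) - EuclideanSpace.single 0 1)
        (act A (EuclideanSpace.single 0 1) - EuclideanSpace.single 0 1)
      rw [map_sub, h2, sub_self, map_zero] at h4
      exact sub_eq_zero.1 ((inner_self_eq_zero (𝕜 := ℝ)).1 h4.symm)
    refine ⟨⟨A⁻¹, (Stab n).inv_mem (mem_Stab.2 h3)⟩, ?_⟩
    change Fr.rot (A⁻¹)⁻¹ f = f'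
    rw [inv_inv, hA]

/-! ### the measure -/

variable [MeasurableSpace M] [BorelSpace M] {μ : Measure M} {m : Measure (UT g)}

/-- the normalised volume -/
def nvol (μ : Measure M) : Measure M := (μ univ)⁻¹ • μ

theorem isProb_nvol [Nonempty M] (hμ : IsRiemVol g μ) : IsProbabilityMeasure (nvol μ) := by
  have := hμ.isFiniteMeasure
  have := hμ.isOpenPosMeasure
  have h0 : μ univ ≠ 0 := (isOpen_univ.measure_pos μ univ_nonempty).ne'
  refine ⟨?_⟩
  unfold nvol
  rw [Measure.smul_apply, smul_eq_mul, ENNReal.inv_mul_cancel h0 (measure_ne_top μ _)]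

theorem isOpenPos_nvol [Nonempty M] (hμ : IsRiemVol g μ) : (nvol μ).IsOpenPosMeasure := by
  have := hμ.isFiniteMeasure
  have := hμ.isOpenPosMeasure
  refine ⟨fun U hU hne => ?_⟩
  unfold nvol
  rw [Measure.smul_apply, smul_eq_mul]
  exact mul_ne_zero (ENNReal.inv_ne_zero.2 (measure_ne_top μ _)) (hU.measure_pos μ hne).ne'

theorem integral_nvol (μ : Measure M) (f : M → ℝ) :
    ∫ x, f x ∂nvol μ = (∫ x, f x ∂μ) / μ.real univ := by
  unfold nvol
  rw [integral_smul_measure, ENNReal.toReal_inv, smul_eq_mul, inv_mul_eq_div]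
  rfl

/-- the invariant probability measure of the frame bundle -/
theorem exists_mP [Nonempty M] (hμ : IsRiemVol g μ) (hm : IsLiouville g μ m) :
    ∃ mP : Measure (Fr g), IsProbabilityMeasure mP ∧ mP.IsOpenPosMeasure ∧
      (∀ A : OG n, MeasurePreserving (Fr.rot A : Fr g → Fr g) mP mP) ∧
      MeasurePreserving (fun f : Fr g => f.ut 0) mP m ∧
      ∀ Φ : Fr g → Fr g, Continuous Φ → (∀ A ∈ Stab n, ∀ f, Φ (Fr.rot A f) = Fr.rot A (Φ f)) →
        ∀ φ : UT g → UT g, MeasurePreserving φ m m → (∀ f, (Φ f).ut 0 = φ (f.ut 0)) →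
          MeasurePreserving Φ mP mP := by
  have := isProb_nvol (g := g) hμ
  have := isOpenPos_nvol (g := g) hμ
  have := hm.1
  have := compactSpace_UT g
  have := t2Space_UT g
  have := secondCountable_UT g
  set mP : Measure (Fr g) := bdlMeasure (nvol μ) (isBdl_pt g) with hmP
  have hprob : IsProbabilityMeasure mP := instProbBdl (nvol μ) (isBdl_pt g)
  have hrot : ∀ A : OG n, MeasurePreserving (Fr.rot A : Fr g → Fr g) mP mP := by
    intro A
    have h := measurePreserving_smul (nvol μ) (isBdl_pt g) A⁻¹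
    have e : (fun f : Fr g => A⁻¹ • f) = Fr.rot A := by
      funext f
      rw [smul_def', inv_inv]
    rwa [e] at h
  have hproj : MeasurePreserving (fun f : Fr g => f.ut 0) mP m := by
    have hc : Continuous (fun f : Fr g => f.ut 0) := Fr.continuous_ut 0
    refine ⟨hc.measurable, ?_⟩
    have : IsProbabilityMeasure (Measure.map (fun f : Fr g => f.ut 0) mP) :=
      Measure.isProbabilityMeasure_map hc.measurable.aemeasurable
    refine measure_ext fun a ha => ?_
    rw [integral_map hc.measurable.aemeasurable ha.aestronglyMeasurable, hm.2 a ha,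
      ← integral_nvol]
    refine (integral_bdlMeasure (nvol μ) (isBdl_pt g) (ha.comp hc)).trans ?_
    refine integral_congr_ae (Eventually.of_forall fun x => ?_)
    obtain ⟨f, hf⟩ := exists_frame g x
    subst hf
    have h1 : avgM (isBdl_pt g) (a ∘ fun f : Fr g => f.ut 0) f.pt =
        avg (OG n) (a ∘ fun f : Fr g => f.ut 0) f := avgM_apply (isBdl_pt g) _ f
    refine h1.trans ?_
    rw [sphAvg_eq_haar g ha f.pt (Lf f) (inner_Lf f)
      (u := EuclideanSpace.single (0 : Fin n) (1 : ℝ)) (by simp)]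
    unfold avg
    refine (integral_haarP_inv (OG n) (fun A => a ((Fr.rot A f).ut 0))).trans ?_
    refine integral_congr_ae (Eventually.of_forall fun A => ?_)
    have h2 : innerB g f.pt (Lf f (act A (EuclideanSpace.single (0 : Fin n) (1 : ℝ))))
        (Lf f (act A (EuclideanSpace.single (0 : Fin n) (1 : ℝ)))) = 1 := by
      rw [inner_Lf, real_inner_self_eq_norm_sq, norm_act]
      simp
    have h3 := radial_unit g a f.pt
      (Lf f (act A (EuclideanSpace.single (0 : Fin n) (1 : ℝ)))) h2
    refine Eq.trans ?_ h3.symm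
    change a ((Fr.rot A f).ut 0) = _
    congr 1
    apply Subtype.ext
    exact congrArg (fun w : TangentSpace 𝓘(ℝ, EV n) f.pt =>
      (⟨f.pt, w⟩ : TangentBundle 𝓘(ℝ, EV n) M)) (rot_e_zero A f)
  have hH : mP = bdlMeasure m (isBdl_ut g) := by
    refine eq_bdlMeasure_of_inv m (isBdl_ut g) (fun A => ?_) hproj
    have h := hrot (A.1)⁻¹
    exact h
  refine ⟨mP, hprob, bdlMeasure_isOpenPos (nvol μ) (isBdl_pt g), hrot, hproj, ?_⟩
  intro Φ hΦ hcomm φ hφ hcov
  have h := measurePreserving_lift m (isBdl_ut g) hΦ (fun A f => ?_) hφ hcov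
  · rwa [← hH] at h
  · exact hcomm (A.1)⁻¹ ((Stab n).inv_mem A.2) f

end Vale.Agent.P207.Q.H892
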