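import Vale.Agent.P207.Q.H717.Pinch
import Vale.Agent.P207.Q.H545.Bianchi
import Vale.Agent.P207.Q.H916.Fr6
import Vale.Agent.P207.Q.H413.FlowCal
import Vale.Agent.P207.Q.H892.Codazzi

/-!
# P207: the curvature functions on the orthonormal frame bundle of a 3-manifold

`Ef g a b : C(Fr g, ℝ)` is the curvature operator read in the frame; its derivatives along the
vertical and horizontal flows, and the structure `Curv` over the calculus of the six flows.
-/

open scoped Manifold ContDiff ENNReal Topology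
open Bundle MeasureTheory Set Filter

set_option maxSynthPendingDepth 3
set_option linter.unusedSectionVars false
set_option linter.unusedSimpArgs false

noncomputable section

namespace Vale.Agent.P207.Q.H892

open Vale.Agent.P255 (RMetric coefIn Gam Riem IsGeo Metric trans coefL)
open Vale.Agent.P207 Vale.Agent.P207.Q Vale.Agent.P207.Q.H545 Vale.Agent.P207.Q.H413

variable {M : Type} [TopologicalSpace M] [ChartedSpace (EV 3) M]
  [IsManifold 𝓘(ℝ, EV 3) ∞ M] {g : RMetric (EV 3) M}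

/-- the curvature operator read in an orthonormal frame -/
def Ef (g : RMetric (EV 3) M) (a b : Fin 3) : C(Fr g, ℝ) :=
  ⟨fun f => - Rf g f (a + 1) (a + 2) (b + 2) (b + 1), (H717.continuous_Rf g _ _ _ _).neg⟩

theorem Ef_apply (f : Fr g) (a b : Fin 3) :
    Ef g a b f = - Rf g f (a + 1) (a + 2) (b + 2) (b + 1) := rfl

/-- the value in every chart -/
theorem Ef_eq (f : Fr g) (i j : Fin 3) {a : M} (ha : f.pt ∈ (chartAt (EV 3) a).source) :
    Ef g i j f = EE ((mt g).coef a) i j (chF a f.1) := by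
  rw [Ef_apply, Rf_eq f _ _ _ _ ha]
  rfl

theorem Ef_symm (i j : Fin 3) : Ef g i j = Ef g j i := by
  ext f
  have ha : f.pt ∈ (chartAt (EV 3) f.pt).source := mem_chart_source _ _
  rw [Ef_eq f i j ha, Ef_eq f j i ha]
  exact EE_symm ((mt g).isMetricOn f.pt) ((chartAt (EV 3) f.pt).map_source ha) i j

/-- `K₀₀ = E₂₂ = - ⟨R(e₁, e₀) e₀, e₁⟩` -/
theorem Ef_22 (f : Fr g) : Ef g 2 2 f = - Rf g f 1 0 0 1 := by
  have ha : f.pt ∈ (chartAt (EV 3) f.pt).source := mem_chart_source _ _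
  have hu : (chF f.pt f.1).1 ∈ (chartAt (EV 3) f.pt).target :=
    (chartAt (EV 3) f.pt).map_source ha
  have h := RR_pair ((mt g).isMetricOn f.pt) hu (p := chF f.pt f.1) (0 : Fin 3) 1 1 0
  rw [Ef_eq f 2 2 ha, Rf_eq f 1 0 0 1 ha, EE]
  exact congrArg Neg.neg h

/-- `K₁₁ = E₁₁ = - ⟨R(e₂, e₀) e₀, e₂⟩` -/
theorem Ef_11 (f : Fr g) : Ef g 1 1 f = - Rf g f 2 0 0 2 := rfl

/-- `K₀₁ = - E₁₂ = - ⟨R(e₁, e₀) e₀, e₂⟩` -/
theorem Ef_12 (f : Fr g) : Ef g 1 2 f = Rf g f 1 0 0 2 := by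
  have ha : f.pt ∈ (chartAt (EV 3) f.pt).source := mem_chart_source _ _
  have hu : (chF f.pt f.1).1 ∈ (chartAt (EV 3) f.pt).target :=
    (chartAt (EV 3) f.pt).map_source ha
  have h := RR_pair ((mt g).isMetricOn f.pt) hu (p := chF f.pt f.1) (2 : Fin 3) 0 1 0
  have h2 := RR_skew ((mt g).isMetricOn f.pt) hu (p := chF f.pt f.1) (1 : Fin 3) 0 2 0
  rw [Ef_eq f 1 2 ha, Rf_eq f 1 0 0 2 ha, EE]
  refine (congrArg Neg.neg (h.trans h2)).trans (neg_neg _)

/-- the derivative along a curve -/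
theorem hasDerivAt_Ef {c : ℝ → Fr g} {t : ℝ} {Z : EV 3 × (Fin 3 → EV 3)} (hc : ContinuousAt c t)
    {a : M} (ha : (c t).pt ∈ (chartAt (EV 3) a).source)
    (hd : HasDerivAt (fun r => chF a (c r).1) Z t) (i j : Fin 3) :
    HasDerivAt (fun r => Ef g i j (c r))
      (fderiv ℝ (EE ((mt g).coef a) i j) (chF a (c t).1) Z) t := by
  have hev : ∀ᶠ r in 𝓝 t, (c r).pt ∈ (chartAt (EV 3) a).source :=
    (Fr.continuous_pt.continuousAt.comp hc) ((chartAt (EV 3) a).open_source.mem_nhds ha)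
  have hu : (chF a (c t).1).1 ∈ (chartAt (EV 3) a).target := (chartAt (EV 3) a).map_source ha
  have h1 := ((contDiffAt_EE ((mt g).isMetricOn a) hu i j).differentiableAt
    (by simp)).hasFDerivAt.comp_hasDerivAt t hd
  refine h1.congr_of_eventuallyEq ?_
  filter_upwards [hev] with r hr
  exact Ef_eq (c r) i j hr

/-- the derivative along the vertical flows -/
theorem hasDerivAt_Ef_ver {A : Matrix (Fin 3) (Fin 3) ℝ} (hA : IsGen A) (f : Fr g)
    (i j : Fin 3) :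
    HasDerivAt (fun t => Ef g i j (verFlow hA t f))
      (∑ c, (A c i * Ef g c j f + A c j * Ef g i c f)) 0 := by
  have hf : f.pt ∈ (chartAt (EV 3) f.pt).source := mem_chart_source _ _
  have h0 : verFlow hA 0 f = f := verFlow_zero hA f
  have hc : ContinuousAt (fun t => verFlow hA t f) 0 :=
    ((continuous_verFlow hA).comp (continuous_id.prodMk continuous_const)).continuousAt
  have h1 := hasDerivAt_Ef hc (a := f.pt) (by rw [h0]; exact hf)
    (hasDerivAt_verFlow hA f f.pt 0) i j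
  rw [h0] at h1
  have hu : (chF f.pt f.1).1 ∈ (chartAt (EV 3) f.pt).target :=
    (chartAt (EV 3) f.pt).map_source hf
  rw [fderiv_EE_ver ((mt g).isMetricOn f.pt) hu hA.skew] at h1
  simp only [Ef_eq f _ _ hf]
  exact h1

/-- the derivative along the horizontal flows -/
theorem hasDerivAt_Ef_hor [T2Space M] {Φ : ℝ → Fr g → Fr g} {k : Fin 3}
    (h : IsHorFlow g (Pi.single k 1) Φ) (f : Fr g) (i j : Fin 3) :
    HasDerivAt (fun t => Ef g i j (Φ t f))
      (fderiv ℝ (EE ((mt g).coef f.pt) i j) (chF f.pt f.1)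
        (Brk.hor ((mt g).coef f.pt) k (chF f.pt f.1))) 0 := by
  have hf : f.pt ∈ (chartAt (EV 3) f.pt).source := mem_chart_source _ _
  have h0 : Φ 0 f = f := h.zero f
  have hc : ContinuousAt (fun t => Φ t f) 0 := (h.continuous_left f).continuousAt
  have h1 := hasDerivAt_Ef hc (a := f.pt) (by rw [h0]; exact hf)
    (h.eqn f (t := 0) (by rw [h0]; exact hf)) i j
  rw [h0, hF_single] at h1
  exact h1

/-- the divergence of the curvature operator vanishes -/
theorem div_Ef (f : Fr g) (j : Fin 3) :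
    ∑ k, fderiv ℝ (EE ((mt g).coef f.pt) k j) (chF f.pt f.1)
        (Brk.hor ((mt g).coef f.pt) k (chF f.pt f.1)) = 0 :=
  div_EE ((mt g).isMetricOn f.pt) ((chartAt (EV 3) f.pt).map_source (mem_chart_source _ _)) j

/-! ### the structure `Curv` -/

section Inst

variable [CompactSpace M] [T2Space M] [SecondCountableTopology M]

/-- The six flows of the frame bundle of a 3-manifold. -/
structure IsFrFlows {m : Measure (Fr g)} (F : Flows m) : Prop where
  hX : IsHorFlow g (Pi.single 0 1) (F.Φ .X)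
  hH : ∀ i : Fin 2, IsHorFlow g (Pi.single i.succ 1) (F.Φ (.H i))
  hV : ∀ (i : Fin 2) (t : ℝ) (f : Fr g), F.Φ (.V i) t f =
    verFlow (isGen_rot (i := i.succ) (j := 0) (Fin.succ_ne_zero i)) t f
  hR : ∀ (t : ℝ) (f : Fr g), F.Φ .R t f =
    verFlow (isGen_rot (i := (2 : Fin 3)) (j := 1) (by decide)) t f

variable {m : Measure (Fr g)} {F : Flows m} (hF : IsFrFlows F) (C : SClass F)
  (hE : ∀ a b, Ef g a b ∈ C.S)

include hF

theorem dd_V (i : Fin 2) (a b : Fin 3) (f : Fr g) :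
    (C.dd (.V i) ⟨Ef g a b, hE a b⟩ : C(Fr g, ℝ)) f =
      ∑ c, (Brk.rot i.succ 0 c a * Ef g c b f + Brk.rot i.succ 0 c b * Ef g a c f) := by
  refine (C.hasDerivAt_dd (.V i) ⟨Ef g a b, hE a b⟩ f).unique ?_
  simp only [hF.hV]
  exact hasDerivAt_Ef_ver _ f a b

theorem dd_R (a b : Fin 3) (f : Fr g) :
    (C.dd .R ⟨Ef g a b, hE a b⟩ : C(Fr g, ℝ)) f =
      ∑ c, (Brk.rot 2 1 c a * Ef g c b f + Brk.rot 2 1 c b * Ef g a c f) := by
  refine (C.hasDerivAt_dd .R ⟨Ef g a b, hE a b⟩ f).unique ?_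
  simp only [hF.hR]
  exact hasDerivAt_Ef_ver _ f a b

theorem dd_X (a b : Fin 3) (f : Fr g) :
    (C.dd .X ⟨Ef g a b, hE a b⟩ : C(Fr g, ℝ)) f =
      fderiv ℝ (EE ((mt g).coef f.pt) a b) (chF f.pt f.1)
        (Brk.hor ((mt g).coef f.pt) 0 (chF f.pt f.1)) :=
  (C.hasDerivAt_dd .X ⟨Ef g a b, hE a b⟩ f).unique (hasDerivAt_Ef_hor hF.hX f a b)

theorem dd_H (i : Fin 2) (a b : Fin 3) (f : Fr g) :
    (C.dd (.H i) ⟨Ef g a b, hE a b⟩ : C(Fr g, ℝ)) f =
      fderiv ℝ (EE ((mt g).coef f.pt) a b) (chF f.pt f.1)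
        (Brk.hor ((mt g).coef f.pt) i.succ (chF f.pt f.1)) :=
  (C.hasDerivAt_dd (.H i) ⟨Ef g a b, hE a b⟩ f).unique (hasDerivAt_Ef_hor (hF.hH i) f a b)

theorem dd_div (b : Fin 3) (f : Fr g) :
    (C.dd .X ⟨Ef g 0 b, hE 0 b⟩ : C(Fr g, ℝ)) f + (C.dd (.H 0) ⟨Ef g 1 b, hE 1 b⟩ : C(Fr g, ℝ)) f +
      (C.dd (.H 1) ⟨Ef g 2 b, hE 2 b⟩ : C(Fr g, ℝ)) f = 0 := by
  rw [dd_X hF C hE, dd_H hF C hE, dd_H hF C hE]
  have h := div_Ef f b
  rw [Fin.sum_univ_three] at h
  exact h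

/-- **the structure `Curv` on the frame bundle**, given the brackets `[X, H_k]` -/
def curvOf [IsProbabilityMeasure m]
    {VX : ∀ i (f : C.S), C.dd (.V i) (C.dd .X f) - C.dd .X (C.dd (.V i) f) = C.dd (.H i) f}
    {VH : ∀ i j (f : C.S), C.dd (.V i) (C.dd (.H j) f) - C.dd (.H j) (C.dd (.V i) f) =
      if i = j then - C.dd .X f else 0}
    {VV : ∀ f : C.S, C.dd (.V 0) (C.dd (.V 1) f) - C.dd (.V 1) (C.dd (.V 0) f) = C.dd .R f}
    (XH0 : ∀ f : C.S, C.dd .X (C.dd (.H 0) f) - C.dd (.H 0) (C.dd .X f) =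
      - (⟨Ef g 2 2, hE 2 2⟩ * C.dd (.V 0) f - ⟨Ef g 1 2, hE 1 2⟩ * C.dd (.V 1) f)
        - ⟨Ef g 0 2, hE 0 2⟩ * C.dd .R f)
    (XH1 : ∀ f : C.S, C.dd .X (C.dd (.H 1) f) - C.dd (.H 1) (C.dd .X f) =
      - (- ⟨Ef g 1 2, hE 1 2⟩ * C.dd (.V 0) f + ⟨Ef g 1 1, hE 1 1⟩ * C.dd (.V 1) f)
        + ⟨Ef g 0 1, hE 0 1⟩ * C.dd .R f) :
    Curv (C.cal VX VH VV) where
  E00 := ⟨Ef g 0 0, hE 0 0⟩
  E01 := ⟨Ef g 0 1, hE 0 1⟩
  E02 := ⟨Ef g 0 2, hE 0 2⟩
  E11 := ⟨Ef g 1 1, hE 1 1⟩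
  E12 := ⟨Ef g 1 2, hE 1 2⟩
  E22 := ⟨Ef g 2 2, hE 2 2⟩
  V0E01 := by
    apply Subtype.ext; ext f
    refine (dd_V hF C hE 0 0 1 f).trans ?_
    simp [Brk.rot, Fin.sum_univ_three, Matrix.single_apply]
    ring
  V0E02 := by
    apply Subtype.ext; ext f
    refine (dd_V hF C hE 0 0 2 f).trans ?_
    simp [Brk.rot, Fin.sum_univ_three, Matrix.single_apply]
  V0E11 := by
    apply Subtype.ext; ext f
    refine (dd_V hF C hE 0 1 1 f).trans ?_
    simp [Brk.rot, Fin.sum_univ_three, Matrix.single_apply, Ef_symm (g := g) 1 0]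
  V0E12 := by
    apply Subtype.ext; ext f
    refine (dd_V hF C hE 0 1 2 f).trans ?_
    simp [Brk.rot, Fin.sum_univ_three, Matrix.single_apply]
  V0E22 := by
    apply Subtype.ext; ext f
    refine (dd_V hF C hE 0 2 2 f).trans ?_
    simp [Brk.rot, Fin.sum_univ_three, Matrix.single_apply]
  V1E01 := by
    apply Subtype.ext; ext f
    refine (dd_V hF C hE 1 0 1 f).trans ?_
    simp [Brk.rot, Fin.sum_univ_three, Matrix.single_apply, Ef_symm (g := g) 2 1]
  V1E02 := by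
    apply Subtype.ext; ext f
    refine (dd_V hF C hE 1 0 2 f).trans ?_
    simp [Brk.rot, Fin.sum_univ_three, Matrix.single_apply]
    ring
  V1E11 := by
    apply Subtype.ext; ext f
    refine (dd_V hF C hE 1 1 1 f).trans ?_
    simp [Brk.rot, Fin.sum_univ_three, Matrix.single_apply]
  V1E12 := by
    apply Subtype.ext; ext f
    refine (dd_V hF C hE 1 1 2 f).trans ?_
    simp [Brk.rot, Fin.sum_univ_three, Matrix.single_apply, Ef_symm (g := g) 1 0]
  V1E22 := by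
    apply Subtype.ext; ext f
    refine (dd_V hF C hE 1 2 2 f).trans ?_
    simp [Brk.rot, Fin.sum_univ_three, Matrix.single_apply, Ef_symm (g := g) 2 0]
  RE01 := by
    apply Subtype.ext; ext f
    refine (dd_R hF C hE 0 1 f).trans ?_
    simp [Brk.rot, Fin.sum_univ_three, Matrix.single_apply]
  RE02 := by
    apply Subtype.ext; ext f
    refine (dd_R hF C hE 0 2 f).trans ?_
    simp [Brk.rot, Fin.sum_univ_three, Matrix.single_apply]
  RE11 := by
    apply Subtype.ext; ext f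
    refine (dd_R hF C hE 1 1 f).trans ?_
    simp [Brk.rot, Fin.sum_univ_three, Matrix.single_apply, Ef_symm (g := g) 2 1]
  RE12 := by
    apply Subtype.ext; ext f
    refine (dd_R hF C hE 1 2 f).trans ?_
    simp [Brk.rot, Fin.sum_univ_three, Matrix.single_apply]
    ring
  RE22 := by
    apply Subtype.ext; ext f
    refine (dd_R hF C hE 2 2 f).trans ?_
    simp [Brk.rot, Fin.sum_univ_three, Matrix.single_apply, Ef_symm (g := g) 2 1]
  div1 := by
    apply Subtype.ext; ext f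
    have h := dd_div hF C hE 1 f
    simp only [Ef_symm (g := g) 2 1] at h
    exact h
  div2 := by
    apply Subtype.ext; ext f
    exact dd_div hF C hE 2 f
  XH0 := XH0
  XH1 := XH1

end Inst

end Vale.Agent.P207.Q.H892
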