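import Vale.Agent.P207.Q.H892.CurvFr
import Vale.Agent.P207.Q.H916.Fr7

/-!
# P207: the brackets of the horizontal fields of the frame bundle of a 3-manifold
-/

open scoped Manifold ContDiff ENNReal Topology
open Bundle MeasureTheory Set Filter VectorField

set_option maxSynthPendingDepth 3
set_option linter.unusedSectionVars false

noncomputable section

namespace Vale.Agent.P207.Q.H892

open Vale.Agent.P255 (RMetric coefIn Gam Riem IsGeo Metric trans coefL)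
open Vale.Agent.P207 Vale.Agent.P207.Q Vale.Agent.P207.Q.H545 Vale.Agent.P207.Q.H413

section Ver

variable {E : Type} [NormedAddCommGroup E] [NormedSpace ℝ E] {ι : Type} [Fintype ι]

theorem ver_sum {κ : Type} (s : Finset κ) (c : κ → ℝ) (A : κ → Matrix ι ι ℝ)
    (p : E × (ι → E)) : Brk.ver (∑ b ∈ s, c b • A b) p = ∑ b ∈ s, c b • Brk.ver (A b) p := by
  refine Prod.ext ?_ ?_
  · simp [Brk.ver, Prod.fst_sum]
  · funext i
    simp only [Brk.ver, Prod.snd_sum, Finset.sum_apply, Prod.smul_snd, Pi.smul_apply,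
      Matrix.sum_apply, Matrix.smul_apply, smul_eq_mul, Finset.sum_smul, Finset.smul_sum, smul_smul]
    rw [Finset.sum_comm]

theorem ver_neg (A : Matrix ι ι ℝ) (p : E × (ι → E)) : Brk.ver (-A) p = - Brk.ver A p := by
  refine Prod.ext ?_ ?_
  · simp [Brk.ver]
  · funext i
    simp [Brk.ver]

theorem rot_swap [DecidableEq ι] (i j : ι) : Brk.rot i j = - Brk.rot j i := by
  simp [Brk.rot]

end Ver

variable {M : Type} [TopologicalSpace M] [ChartedSpace (EV 3) M]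
  [IsManifold 𝓘(ℝ, EV 3) ∞ M] {g : RMetric (EV 3) M}

/-- the vertical derivative of the opposite rotation -/
theorem dZ_rot_swap (i j : Fin 3) (f : Fr g → ℝ) (p : Fr g) :
    dZ (verZ g (Brk.rot i j)) f p = - dZ (verZ g (Brk.rot j i)) f p := by
  unfold dZ
  rw [verZ_Z, verZ_Z, rot_swap i j, ver_neg, map_neg]

/-- `[H_{a+1}, H_{a+2}] f = ∑_b E_ab V(rot (b+1) (b+2)) f` -/
theorem bracket_hor_hor {Ψ : Fin 3 → ℝ → Fr g → Fr g}
    (hΨ : ∀ i, IsHorFlow g (Pi.single i 1) (Ψ i)) {f : Fr g → ℝ} (hf : SmF f) (a : Fin 3)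
    (p : Fr g) :
    dZ (horZ g (Pi.single (a + 1) 1)) (dZ (horZ g (Pi.single (a + 2) 1)) f) p -
      dZ (horZ g (Pi.single (a + 2) 1)) (dZ (horZ g (Pi.single (a + 1) 1)) f) p =
      ∑ b, Ef g a b p * dZ (verZ g (Brk.rot (b + 1) (b + 2))) f p := by
  have ha : p.pt ∈ (chartAt (EV 3) p.pt).source := mem_chart_source _ _
  have hu : (chF p.pt p.1).1 ∈ (chartAt (EV 3) p.pt).target := (chartAt (EV 3) p.pt).map_source ha
  rw [(hΨ (a + 1)).isFlow.bracket (hΨ (a + 2)).isFlow hf ha]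
  change fderiv ℝ (rd f p.pt) (chF p.pt p.1)
    (lieBracket ℝ (hF ((mt g).coef p.pt) (Pi.single (a + 1) 1))
      (hF ((mt g).coef p.pt) (Pi.single (a + 2) 1)) (chF p.pt p.1)) = _
  rw [hF_single, hF_single, lieBracket_hor_hor_EE ((mt g).isMetricOn p.pt) hu (by simp [EV])
    (orth_chF ha), ver_sum, map_sum]
  refine Finset.sum_congr rfl fun b _ => ?_
  rw [map_smul, smul_eq_mul, Ef_eq p a b ha]
  rfl

/-! ### the brackets for the derivations of the six flows -/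

section Inst

variable [CompactSpace M] [T2Space M] [SecondCountableTopology M]
  {m : Measure (Fr g)} {F : Flows m} (hF : IsFrFlows F) (C : SClass F)
  (hS : ∀ f ∈ C.S, SmF (fun p => f p))

include hF hS

theorem dd_eq_X (f : C.S) (p : Fr g) : (C.dd .X f : C(Fr g, ℝ)) p =
    dZ (horZ g (Pi.single 0 1)) (fun p => (f : C(Fr g, ℝ)) p) p := by
  have h := hF.hX.isFlow.hasDerivAt (hS f f.2) p 0
  rw [hF.hX.zero p] at h
  exact (C.hasDerivAt_dd .X f p).unique h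

theorem dd_eq_H (i : Fin 2) (f : C.S) (p : Fr g) : (C.dd (.H i) f : C(Fr g, ℝ)) p =
    dZ (horZ g (Pi.single i.succ 1)) (fun p => (f : C(Fr g, ℝ)) p) p := by
  have h := (hF.hH i).isFlow.hasDerivAt (hS f f.2) p 0
  rw [(hF.hH i).zero p] at h
  exact (C.hasDerivAt_dd (.H i) f p).unique h

theorem dd_eq_V (i : Fin 2) (f : C.S) (p : Fr g) : (C.dd (.V i) f : C(Fr g, ℝ)) p =
    dZ (verZ g (Brk.rot i.succ 0)) (fun p => (f : C(Fr g, ℝ)) p) p := by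
  have h := (isFlow_ver (g := g)
    (isGen_rot (i := i.succ) (j := 0) (Fin.succ_ne_zero i))).hasDerivAt (hS f f.2) p 0
  rw [verFlow_zero] at h
  have h2 := C.hasDerivAt_dd (.V i) f p
  simp only [hF.hV] at h2
  exact h2.unique h

theorem dd_eq_R (f : C.S) (p : Fr g) : (C.dd .R f : C(Fr g, ℝ)) p =
    dZ (verZ g (Brk.rot 2 1)) (fun p => (f : C(Fr g, ℝ)) p) p := by
  have h := (isFlow_ver (g := g)
    (isGen_rot (i := (2 : Fin 3)) (j := 1) (by decide))).hasDerivAt (hS f f.2) p 0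
  rw [verFlow_zero] at h
  have h2 := C.hasDerivAt_dd .R f p
  simp only [hF.hR] at h2
  exact h2.unique h

theorem exists_horFlows : ∃ Ψ : Fin 3 → ℝ → Fr g → Fr g,
    ∀ i, IsHorFlow g (Pi.single i 1) (Ψ i) := by
  refine ⟨fun i => Fin.cases (F.Φ .X) (fun i => F.Φ (.H i)) i, fun i => ?_⟩
  refine Fin.cases ?_ (fun i => ?_) i
  · exact hF.hX
  · exact hF.hH i

/-- `[X, H_1] = - E₂₂ V_1 + E₁₂ V_2 - E₀₂ R` -/
theorem dd_XH0 (hE : ∀ a b, Ef g a b ∈ C.S) (f : C.S) :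
    C.dd .X (C.dd (.H 0) f) - C.dd (.H 0) (C.dd .X f) =
      - (⟨Ef g 2 2, hE 2 2⟩ * C.dd (.V 0) f - ⟨Ef g 1 2, hE 1 2⟩ * C.dd (.V 1) f)
        - ⟨Ef g 0 2, hE 0 2⟩ * C.dd .R f := by
  obtain ⟨Ψ, hΨ⟩ := exists_horFlows hF C hS
  apply Subtype.ext
  ext p
  have e1 : (fun p => (C.dd (.H 0) f : C(Fr g, ℝ)) p) =
      dZ (horZ g (Pi.single 1 1)) (fun p => (f : C(Fr g, ℝ)) p) :=
    funext fun p => dd_eq_H hF C hS 0 f p
  have e2 : (fun p => (C.dd .X f : C(Fr g, ℝ)) p) =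
      dZ (horZ g (Pi.single 0 1)) (fun p => (f : C(Fr g, ℝ)) p) :=
    funext fun p => dd_eq_X hF C hS f p
  have h := bracket_hor_hor hΨ (hS f f.2) 2 p
  change (C.dd .X (C.dd (.H 0) f) : C(Fr g, ℝ)) p - (C.dd (.H 0) (C.dd .X f) : C(Fr g, ℝ)) p =
    - (Ef g 2 2 p * (C.dd (.V 0) f : C(Fr g, ℝ)) p - Ef g 1 2 p * (C.dd (.V 1) f : C(Fr g, ℝ)) p)
      - Ef g 0 2 p * (C.dd .R f : C(Fr g, ℝ)) p
  rw [dd_eq_X hF C hS, dd_eq_H hF C hS, e1, e2, dd_eq_V hF C hS, dd_eq_V hF C hS,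
    dd_eq_R hF C hS]
  rw [Fin.sum_univ_three] at h
  have d0 := dZ_rot_swap (g := g) 1 2 (fun p => (f : C(Fr g, ℝ)) p) p
  have d2 := dZ_rot_swap (g := g) 0 1 (fun p => (f : C(Fr g, ℝ)) p) p
  have s1 : Ef g 2 0 p = Ef g 0 2 p := by rw [Ef_symm]
  have s2 : Ef g 2 1 p = Ef g 1 2 p := by rw [Ef_symm]
  have h' : dZ (horZ g (Pi.single 0 1)) (dZ (horZ g (Pi.single 1 1))
      (fun p => (f : C(Fr g, ℝ)) p)) p -
      dZ (horZ g (Pi.single 1 1)) (dZ (horZ g (Pi.single 0 1)) (fun p => (f : C(Fr g, ℝ)) p)) p =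
      Ef g 2 0 p * dZ (verZ g (Brk.rot 1 2)) (fun p => (f : C(Fr g, ℝ)) p) p +
      Ef g 2 1 p * dZ (verZ g (Brk.rot 2 0)) (fun p => (f : C(Fr g, ℝ)) p) p +
      Ef g 2 2 p * dZ (verZ g (Brk.rot 0 1)) (fun p => (f : C(Fr g, ℝ)) p) p := h
  rw [d0, d2, s1, s2] at h'
  refine h'.trans ?_
  change _ = - (Ef g 2 2 p * dZ (verZ g (Brk.rot 1 0)) (fun p => (f : C(Fr g, ℝ)) p) p -
    Ef g 1 2 p * dZ (verZ g (Brk.rot 2 0)) (fun p => (f : C(Fr g, ℝ)) p) p) - _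
  ring

/-- `[X, H_2] = E₁₂ V_1 - E₁₁ V_2 + E₀₁ R` -/
theorem dd_XH1 (hE : ∀ a b, Ef g a b ∈ C.S) (f : C.S) :
    C.dd .X (C.dd (.H 1) f) - C.dd (.H 1) (C.dd .X f) =
      - (- ⟨Ef g 1 2, hE 1 2⟩ * C.dd (.V 0) f + ⟨Ef g 1 1, hE 1 1⟩ * C.dd (.V 1) f)
        + ⟨Ef g 0 1, hE 0 1⟩ * C.dd .R f := by
  obtain ⟨Ψ, hΨ⟩ := exists_horFlows hF C hS
  apply Subtype.ext
  ext p
  have e1 : (fun p => (C.dd (.H 1) f : C(Fr g, ℝ)) p) =
      dZ (horZ g (Pi.single 2 1)) (fun p => (f : C(Fr g, ℝ)) p) :=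
    funext fun p => dd_eq_H hF C hS 1 f p
  have e2 : (fun p => (C.dd .X f : C(Fr g, ℝ)) p) =
      dZ (horZ g (Pi.single 0 1)) (fun p => (f : C(Fr g, ℝ)) p) :=
    funext fun p => dd_eq_X hF C hS f p
  have h := bracket_hor_hor hΨ (hS f f.2) 1 p
  change (C.dd .X (C.dd (.H 1) f) : C(Fr g, ℝ)) p - (C.dd (.H 1) (C.dd .X f) : C(Fr g, ℝ)) p =
    - (- Ef g 1 2 p * (C.dd (.V 0) f : C(Fr g, ℝ)) p + Ef g 1 1 p * (C.dd (.V 1) f : C(Fr g, ℝ)) p)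
      + Ef g 0 1 p * (C.dd .R f : C(Fr g, ℝ)) p
  rw [dd_eq_X hF C hS, dd_eq_H hF C hS, e1, e2, dd_eq_V hF C hS, dd_eq_V hF C hS,
    dd_eq_R hF C hS]
  rw [Fin.sum_univ_three] at h
  have d0 := dZ_rot_swap (g := g) 1 2 (fun p => (f : C(Fr g, ℝ)) p) p
  have d2 := dZ_rot_swap (g := g) 0 1 (fun p => (f : C(Fr g, ℝ)) p) p
  have s1 : Ef g 1 0 p = Ef g 0 1 p := by rw [Ef_symm]
  have h' : dZ (horZ g (Pi.single 2 1)) (dZ (horZ g (Pi.single 0 1))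
      (fun p => (f : C(Fr g, ℝ)) p)) p -
      dZ (horZ g (Pi.single 0 1)) (dZ (horZ g (Pi.single 2 1)) (fun p => (f : C(Fr g, ℝ)) p)) p =
      Ef g 1 0 p * dZ (verZ g (Brk.rot 1 2)) (fun p => (f : C(Fr g, ℝ)) p) p +
      Ef g 1 1 p * dZ (verZ g (Brk.rot 2 0)) (fun p => (f : C(Fr g, ℝ)) p) p +
      Ef g 1 2 p * dZ (verZ g (Brk.rot 0 1)) (fun p => (f : C(Fr g, ℝ)) p) p := h
  rw [d0, d2, s1] at h'
  refine (neg_sub _ _).symm.trans ((congrArg Neg.neg h').trans ?_)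
  change _ = - (- Ef g 1 2 p * dZ (verZ g (Brk.rot 1 0)) (fun p => (f : C(Fr g, ℝ)) p) p +
    Ef g 1 1 p * dZ (verZ g (Brk.rot 2 0)) (fun p => (f : C(Fr g, ℝ)) p) p) + _
  ring

/-- **the structure `Curv` on the frame bundle of a 3-manifold** -/
def curvFr [IsProbabilityMeasure m] (hE : ∀ a b, Ef g a b ∈ C.S)
    {VX : ∀ i (f : C.S), C.dd (.V i) (C.dd .X f) - C.dd .X (C.dd (.V i) f) = C.dd (.H i) f}
    {VH : ∀ i j (f : C.S), C.dd (.V i) (C.dd (.H j) f) - C.dd (.H j) (C.dd (.V i) f) =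
      if i = j then - C.dd .X f else 0}
    {VV : ∀ f : C.S, C.dd (.V 0) (C.dd (.V 1) f) - C.dd (.V 1) (C.dd (.V 0) f) = C.dd .R f} :
    Curv (C.cal VX VH VV) :=
  curvOf hF C hE (dd_XH0 hF C hS hE) (dd_XH1 hF C hS hE)

end Inst

end Vale.Agent.P207.Q.H892
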