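import Vale.Agent.P207.Q.H892.Bundle
import Vale.Agent.P207.BlkV

/-!
# P207, block A7: the average over the unit sphere is the average over the frames
-/

open scoped Manifold ContDiff ENNReal Topology
open Bundle MeasureTheory Set Filter

noncomputable section

set_option linter.unusedSectionVars false

namespace Vale.Agent.P207.Q.H892

open Vale.Agent.P255 (RMetric coefIn Gam Riem IsGeo Metric trans coefL)

variable {n : ℕ} {M : Type} [TopologicalSpace M] [ChartedSpace (EV n) M]
  [IsManifold 𝓘(ℝ, EV n) ∞ M] [CompactSpace M] [T2Space M]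

/-- the value of a function at a unit vector -/
theorem radial_unit (g : RMetric (EV n) M) (a : UT g → ℝ) (x : M)
    (v : TangentSpace 𝓘(ℝ, EV n) x) (h : g.inner x v v = 1) :
    radial g a x v = a ⟨⟨x, v⟩, h⟩ := by
  have hv : v ≠ 0 := by
    rintro rfl
    simp at h
  unfold radial
  rw [dif_neg hv]
  congr 1
  apply Subtype.ext
  unfold unitDir
  simp only [h, Real.sqrt_one, inv_one, one_smul]

/-- positive homogeneity -/
theorem radial_pos_smul (g : RMetric (EV n) M) (a : UT g → ℝ) (x : M)
    (v : TangentSpace 𝓘(ℝ, EV n) x) {c : ℝ} (hc : 0 < c) :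
    radial g a x (c • v) = radial g a x v := by
  unfold radial
  by_cases hv : v = 0
  · subst hv
    rw [dif_pos rfl, dif_pos (smul_zero c)]
  · have hcv : c • v ≠ 0 := smul_ne_zero hc.ne' hv
    rw [dif_neg hv, dif_neg hcv]
    congr 1
    apply Subtype.ext
    have h0 : 0 ≤ g.inner x v v := (g.pos x v hv).le
    have h1 : g.inner x (c • v) (c • v) = c ^ 2 * g.inner x v v := by
      simp only [map_smul, smul_apply, smul_eq_mul]
      ring
    have h2 : (Real.sqrt (g.inner x (c • v) (c • v)))⁻¹ • (c • v) =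
        (Real.sqrt (g.inner x v v))⁻¹ • v := by
      rw [h1, Real.sqrt_mul (sq_nonneg c), Real.sqrt_sq hc.le, smul_smul]
      congr 1
      rw [mul_inv, mul_assoc, mul_comm _ c, ← mul_assoc, inv_mul_cancel₀ hc.ne', one_mul]
    exact congrArg (fun w : TangentSpace 𝓘(ℝ, EV n) x => (⟨x, w⟩ : TangentBundle 𝓘(ℝ, EV n) M)) h2

theorem sphAvg_eq_haar [NeZero n] (g : RMetric (EV n) M) {a : UT g → ℝ} (ha : Continuous a)
    (x : M) (L : EV n →L[ℝ] EV n) (hL : ∀ u v, innerB g x (L u) (L v) = inner ℝ u v)
    {u : EV n} (hu : ‖u‖ = 1) :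
    sphAvg g a x = ∫ A, radial g a x (L (act A u)) ∂haarP (OG n) := by
  have := compactSpace_UT g
  obtain ⟨C, hC0, hC⟩ := exists_abs_le ha
  have hLi : Function.Injective L := by
    rw [injective_iff_map_eq_zero]
    intro v hv
    have h1 := hL v v
    rw [hv, map_zero] at h1
    exact (inner_self_eq_zero (𝕜 := ℝ)).1 h1.symm
  set b : E' n → ℝ := fun w => radial g a x (L w) with hb
  have hbm : Measurable b := (measurable_radial g ha x).comp L.continuous.measurable
  have h1 := ball_avg hbm (C := C) (fun w => abs_radial_le g hC hC0 x _) hu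
  have h2 : sphAvg g a x = avgB ((innerB g x).bilinearComp L L) b :=
    (avgB_comp (innerB g x) hLi (fun v => radial g a x v)).symm
  have h3 : ballB ((innerB g x).bilinearComp L L) = Metric.ball (0 : E' n) 1 := by
    ext w
    rw [mem_ball_zero_iff]
    change innerB g x (L w) (L w) < 1 ↔ _
    rw [hL, real_inner_self_eq_norm_sq]
    constructor
    · intro h
      nlinarith [norm_nonneg w]
    · intro h
      nlinarith [norm_nonneg w]
  rw [h2]
  unfold avgB
  rw [h3]
  refine Eq.trans ?_ h1.symm
  congr 1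
  refine integral_congr_ae (ae_restrict_of_ae ?_)
  have h6 : ∀ᵐ w : E' n, w ≠ 0 := by
    rw [ae_iff]; simp
  filter_upwards [h6] with w hw
  change radial g a x (L w) = radial g a x (L (‖w‖⁻¹ • w))
  rw [map_smul]
  exact (radial_pos_smul g a x (L w) (inv_pos.2 (norm_pos_iff.2 hw))).symm

end Vale.Agent.P207.Q.H892
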